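import Vale.Agent.P167.N.Kit
import Vale.Agent.P167.N.H562.Q.CB2
import Vale.Agent.P167.H398.Q.Mac

/-! generated from Vale.Agent.P167.H398.Q.Mac (q < 1 port) -/

set_option autoImplicit false

namespace Vale.Agent.P167.N.H398.Q

open Vale.Agent.P167.H398.Q Vale.Agent.P167.H398

open Finset Filter Topology MeasureTheory Vale.Agent.P167.FK

open Vale.Agent.P145.FB (PStep PConn)

open Vale.Agent.P167.FKA (Loc Ind mem_bxx_sh shi_sh sh_shi ArmDec)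

open Vale.Agent.P167.H519 (IsLim loc_cont Bq_mono exists_Bq)

open Vale.Agent.P167.H166 (bxx mem_bxx)

open Vale.Agent.P167.H45 (gp BL BL_fin zz zz_box small_box bs_le grid_fin nm_le nm_sub_le cl BL_measR
  nm_sub_comm gp_disj)

open Vale.Agent.P167.H562 (Em Em_mono Em_holder Em_eq)

open Vale.Agent.P167.H562.GL Vale.Agent.P167.H562.SML Vale.Agent.P167.H945

open Vale.Agent.P167.H562.QM

open Relation

variable {Q : ℝ} {D : Finset (ℤ × ℤ)} {η : Cfg} {x b : ℤ × ℤ} {r R R' : ℤ} {pl pr : Bool}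

theorem le_of_bxx_sub {x y : ℤ × ℤ} {a R : ℤ} (ha : 1 ≤ a) (h : bxx y a ⊆ bxx x R) : a ≤ R := by
  have h1 := mem_bxx.1 (h (mem_bxx.2 (show nm ((y.1 + a, y.2) - y) ≤ a by
    rw [nm_le]; constructor <;> simp [abs_le] <;> omega)))
  have h2 := mem_bxx.1 (h (mem_bxx.2 (show nm ((y.1 - a, y.2) - y) ≤ a by
    rw [nm_le]; constructor <;> simp [abs_le] <;> omega)))
  rw [nm_le] at h1 h2
  simp only [Prod.fst_sub, Prod.snd_sub, abs_le] at h1 h2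
  omega

/-- **Large segments near a zone, next to frozen rows.** The number `N` of the pairwise disjoint
segments of diameter at least `κ ρ` which visit the zone `A`: exponential moments, for all domains such
that the small boxes near the zone which avoid the balls have the property `OneC`, and all factors `G`
which depend only on the squares off the domain, off the zone or in the balls. -/
theorem macro_F (hQ : Kit Q) (h : RSW Q) (m : ℕ) : ∃ e1 : ℝ, 0 < e1 ∧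
    ∀ κ R s : ℝ, 0 < κ → 0 ≤ R →
    ∃ C ρ0 : ℝ, 0 < C ∧ 0 < ρ0 ∧ ∀ ρ : ℝ, ρ0 ≤ ρ → ∀ (c : ℤ × ℤ) (A : Finset (ℤ × ℤ)),
      (∀ v ∈ A, (nm (v - c) : ℝ) ≤ R * ρ) → ∀ (x : Fin m → ℤ × ℤ), ∃ N : Cfg → ℕ,
      (∀ ω ω' : Cfg, (∀ v, Nr A (κ * ρ) v →
        (∀ i, e1 * κ / (1 + |s|) * ρ < (nm (v - x i) : ℝ)) → ω v = ω' v) → N ω = N ω') ∧
      (∀ ω, MajA A (κ * ρ) ω (N ω)) ∧
      ∀ (D : Finset (ℤ × ℤ)) (η : Cfg), Good η →
        (∀ (y : ℤ × ℤ) (a : ℤ), 1 ≤ a → (a : ℝ) ≤ κ * ρ / 4 →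
          (∀ v ∈ bxx y a, Nr A (κ * ρ) v ∧ ∀ i, e1 * κ / (1 + |s|) * ρ < (nm (v - x i) : ℝ)) →
          OneC y a D η) →
        ∀ G : Cfg → ℝ, (∀ ω, 0 ≤ G ω) →
        (∀ ω ω' : Cfg, (∀ v, ¬ (v ∈ D ∧ Nr A (κ * ρ) v ∧
          ∀ i, e1 * κ / (1 + |s|) * ρ < (nm (v - x i) : ℝ)) → ω v = ω' v) → G ω = G ω') →
        Ex Q D η (fun ω => G ω * Real.exp (s * (N ω : ℝ))) ≤ C * Ex Q D η G := by
  have hQ_pos := hQ.pos
  classical
  have hQ0 : 0 < Q := by linarith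
  obtain ⟨n0, l0, C0, hn4, hl0, hC0, hcr⟩ := Vale.Agent.P167.N.H562.QM.crossB hQ h
  have hn4' : (4 : ℤ) ≤ n0 := by exact_mod_cast hn4
  have hk : 2 ≤ (n0 : ℤ) + 2 := by omega
  have hloc : ∀ (x : ℤ × ℤ) (r : ℤ), 1 ≤ r → ∀ ω ω' : Cfg,
      (∀ v, nm (v - x) ≤ ((n0 : ℤ) + 2) * r → ω v = ω' v) → ZC n0 x r ω = ZC n0 x r ω' :=
    fun x r hr ω ω' hω => ZC_loc n0 x (by omega) hω
  obtain ⟨θ, b, hθ, hb, hEm⟩ := Em_crossO hk (l := l0) hl0 (C := C0) hC0 hloc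
  set a1 : ℝ := 4 * (((n0 : ℤ) + 2 : ℤ) + 4) * (1 / θ + 2 + 2 * m) with ha1
  have hn0 : (4 : ℝ) ≤ n0 := by exact_mod_cast hn4
  have ha1p : 0 < a1 := by rw [ha1]; push_cast; positivity
  refine ⟨1 / (2 * a1), by positivity, fun κ R s hκ hR => ?_⟩
  obtain ⟨n, hn, hn'⟩ : ∃ n : ℕ, |s| / θ ≤ n ∧ (n : ℝ) ≤ |s| / θ + 1 :=
    ⟨⌈|s| / θ⌉₊, Nat.le_ceil _, (Nat.ceil_lt_add_one (by positivity)).le⟩
  have hsn : |s| ≤ θ * (n + 1 : ℕ) := by
    rw [div_le_iff₀ hθ] at hn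
    push_cast
    nlinarith
  set N : ℕ := n + 1 with hN
  have hN0 : 0 < N := by omega
  obtain ⟨ε, Dc, ρ0, hε, hρ0, hεd, hdet⟩ := macro_detF hk hloc
    (fun x r hr ω 𝓕 h1 h2 h3 => ZC_seg n0 x hr ω 𝓕 h1 h2 h3) κ R m N hN0 hκ hR
  have hεe : 1 / (2 * a1) * κ / (1 + |s|) ≤ ε := by
    rw [hεd]
    have hs0 := abs_nonneg s
    have e1 : 1 / (2 * a1) * κ / (1 + |s|) = κ / (2 * (a1 * (1 + |s|))) := by
      field_simp
    rw [e1]
    refine div_le_div_of_nonneg_left hκ.le ?_ ?_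
    · push_cast; positivity
    · have h5 : ((N + 2 * m : ℕ) : ℝ) ≤ (1 / θ + 2 + 2 * m) * (1 + |s|) := by
        rw [hN]
        push_cast
        have h1 : |s| / θ = |s| * (1 / θ) := by ring
        have h2 : 0 < 1 / θ := by positivity
        have h3 : (0 : ℝ) ≤ m := Nat.cast_nonneg m
        have h4 : 0 ≤ |s| * (m : ℝ) := by positivity
        nlinarith
      have h6 : (0 : ℝ) ≤ 4 * (((n0 : ℤ) + 2 : ℤ) + 4) := by push_cast; positivity
      have h7 := mul_le_mul_of_nonneg_left h5 h6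
      rw [ha1]
      linarith
  refine ⟨Real.exp (Dc * b), ρ0, Real.exp_pos _, hρ0, fun ρ hρ c A hA x => ?_⟩
  have hρp : 0 < ρ := lt_of_lt_of_le hρ0 hρ
  have hεr : 1 / (2 * a1) * κ / (1 + |s|) * ρ ≤ ε * ρ := mul_le_mul_of_nonneg_right hεe hρp.le
  obtain ⟨r, I, hr1, hI, hI0, hkr, hIU', h1', h2⟩ := hdet ρ hρ c A hA x
  have hIU : ∀ i ∈ I, ∀ v, nm (v - gp r i.2) ≤ ((n0 : ℤ) + 2) * r →
      (∃ u ∈ A, (nm (v - u) : ℝ) ≤ κ * ρ) ∧
        ∀ j, 1 / (2 * a1) * κ / (1 + |s|) * ρ < (nm (v - x j) : ℝ) := fun i hi v hv =>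
    ⟨(hIU' i hi v hv).1, fun j => lt_of_le_of_lt hεr ((hIU' i hi v hv).2 j)⟩
  have h1 : ∀ ω ω' : Cfg, (∀ v, Nr A (κ * ρ) v →
      (∀ i, 1 / (2 * a1) * κ / (1 + |s|) * ρ < (nm (v - x i) : ℝ)) → ω v = ω' v) →
      (∑ i ∈ I, ZC n0 (gp r i.2) r ω) / N = (∑ i ∈ I, ZC n0 (gp r i.2) r ω') / N :=
    fun ω ω' hw => h1' ω ω' fun v hv hv' => hw v hv fun i => lt_of_le_of_lt hεr (hv' i)
  refine ⟨fun ω => (∑ i ∈ I, ZC n0 (gp r i.2) r ω) / N, h1, h2, fun D η hη hone G hG0 hG => ?_⟩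
  have hnear : ∀ i ∈ I, ∀ v ∈ bxx (gp r i.2) (((n0 : ℤ) + 2) * r), Nr A (κ * ρ) v ∧
      ∀ j, 1 / (2 * a1) * κ / (1 + |s|) * ρ < (nm (v - x j) : ℝ) :=
    fun i hi v hv => hIU i hi v (mem_bxx.1 hv)
  have hsm : (((((n0 : ℤ) + 1) * r : ℤ)) : ℝ) ≤ κ * ρ / 4 := by
    refine le_trans ?_ hkr
    have h9 : (1 : ℝ) ≤ (r : ℝ) := by exact_mod_cast hr1
    push_cast
    nlinarith
  rcases (FKA.Ex_nonneg (D := D) (η := η) hQ0 fun S _ => hG0 _).eq_or_lt with h0 | hpos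
  · -- `G` vanishes
    have hz : ∀ S ⊆ D, G (cf D η S) = 0 := by
      intro S hS
      have hZ := FKA.Zq_pos hQ0 D η
      have hs : ∑ S ∈ D.powerset, Q ^ LD D (cf D η S) * G (cf D η S) = 0 := by
        unfold Ex at h0
        rw [eq_comm, div_eq_zero_iff] at h0
        rcases h0 with h0 | h0
        · exact h0
        · exact absurd h0 hZ.ne'
      rw [Finset.sum_eq_zero_iff_of_nonneg fun S _ => mul_nonneg (pow_pos hQ0 _).le (hG0 _)] at hs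
      have := hs S (Finset.mem_powerset.2 hS)
      rcases mul_eq_zero.1 this with h3 | h3
      · exact absurd h3 (pow_pos hQ0 _).ne'
      · exact h3
    rw [← h0, mul_zero]
    refine le_of_eq ?_
    have : Ex Q D η (fun ω => G ω * Real.exp (s * (((∑ i ∈ I, ZC n0 (gp r i.2) r ω) / N : ℕ) : ℝ)))
        = Ex Q D η (fun _ => 0) := FKA.Ex_congr fun S hS => by rw [hz S hS, zero_mul]
    rw [this, FKA.Ex_const hQ0]
  obtain ⟨ν, hνp, hν⟩ := exists_law hQ0 hG0 hpos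
  set W : Finset (ℤ × ℤ) := I.biUnion fun i => bxx (gp r i.2) (((n0 : ℤ) + 2) * r) with hW
  have hEmI := hEm ν W hνp r hr1 (I.image Prod.snd) (fun i hi v hv => by
      obtain ⟨j, hj, rfl⟩ := Finset.mem_image.1 hi
      exact Finset.mem_biUnion.2 ⟨j, hj, hv⟩) (fun i hi G2 hG20 _ hG2 => by
      obtain ⟨j, hj, rfl⟩ := Finset.mem_image.1 hi
      rw [hν, hν, ← mul_div_assoc]
      refine div_le_div_of_nonneg_right ?_ hpos.le
      have h5 := hcr (gp r j.2) r hr1 D η (fun ω => G ω * G2 ω) hη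
        (fun y a ha1 hya => hone y a ha1 (le_trans (by exact_mod_cast le_of_bxx_sub ha1 hya) hsm)
          fun v hv => hnear j hj v (by
          have hv' := hya hv
          rw [mem_bxx] at hv' ⊢
          nlinarith)) (fun ω => mul_nonneg (hG0 ω) (hG20 ω))
        (FKA.Ind.mul (fun ω ω' h' => hG ω ω' fun v hv => h' v fun hv' => hv
          ⟨(Finset.mem_inter.1 hv').1, (hnear j hj v (Finset.mem_inter.1 hv').2).1,
            (hnear j hj v (Finset.mem_inter.1 hv').2).2⟩)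
          (FKA.Ind.mono Finset.inter_subset_right hG2))
      refine le_trans (le_of_eq ?_) h5
      refine FKA.Ex_congr fun S _ => ?_
      ring)
  have hsum : ∀ ω, ∑ i ∈ I, (ZC n0 (gp r i.2) r ω : ℝ) =
      ∑ i ∈ I.image Prod.snd, (ZC n0 (gp r i) r ω : ℝ) := by
    intro ω
    rw [Finset.sum_image]
    intro i hi j hj hij
    exact Prod.ext ((hI0 i hi).trans (hI0 j hj).symm) hij
  have hcard : (((I.image Prod.snd).card : ℕ) : ℝ) ≤ Dc :=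
    le_trans (by exact_mod_cast Finset.card_image_le) hI
  have hfin : Em ν (fun ω => s * (((∑ i ∈ I, ZC n0 (gp r i.2) r ω) / N : ℕ) : ℝ)) ≤
      ENNReal.ofReal (Real.exp (Dc * b)) := by
    refine le_trans ?_ (hEmI.trans (ENNReal.ofReal_le_ofReal (Real.exp_le_exp.2
      (mul_le_mul_of_nonneg_right hcard hb))))
    refine Em_mono (μ := ν) fun ω => ?_
    have hN1 : (0 : ℝ) < N := by exact_mod_cast hN0
    have h5 : (((∑ i ∈ I, ZC n0 (gp r i.2) r ω) / N : ℕ) : ℝ) ≤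
        (∑ i ∈ I, (ZC n0 (gp r i.2) r ω : ℝ)) / N := by
      refine Nat.cast_div_le.trans ?_
      rw [Nat.cast_sum]
    have h6 : (0 : ℝ) ≤ (((∑ i ∈ I, ZC n0 (gp r i.2) r ω) / N : ℕ) : ℝ) := by positivity
    rw [← hsum ω]
    calc s * (((∑ i ∈ I, ZC n0 (gp r i.2) r ω) / N : ℕ) : ℝ)
        ≤ |s| * (((∑ i ∈ I, ZC n0 (gp r i.2) r ω) / N : ℕ) : ℝ) :=
          mul_le_mul_of_nonneg_right (le_abs_self s) h6
      _ ≤ (θ * N) * ((∑ i ∈ I, (ZC n0 (gp r i.2) r ω : ℝ)) / N) :=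
          mul_le_mul hsn h5 h6 (by positivity)
      _ = _ := by field_simp
  -- back to the expectation
  have hL : Loc W (fun ω => Real.exp (s * (((∑ i ∈ I, ZC n0 (gp r i.2) r ω) / N : ℕ) : ℝ))) := by
    intro ω ω' hw
    have : ∀ i ∈ I, ZC n0 (gp r i.2) r ω = ZC n0 (gp r i.2) r ω' := fun i hi =>
      hloc _ _ hr1 ω ω' fun v hv => hw v (Finset.mem_biUnion.2 ⟨i, hi, mem_bxx.2 hv⟩)
    simp only
    rw [Finset.sum_congr rfl this]
  rw [Em_eq (loc_integrable hL), ENNReal.ofReal_le_ofReal_iff (Real.exp_pos _).le, hν,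
    div_le_iff₀ hpos] at hfin
  exact hfin

end Vale.Agent.P167.N.H398.Q
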