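import Vale.Agent.P167.N.Kit
import Vale.Agent.P167.N.QX.Thick
import Vale.Agent.P167.H398.Q.Fac

/-! generated from Vale.Agent.P167.H398.Q.Fac (q < 1 port) -/

set_option autoImplicit false

namespace Vale.Agent.P167.N.H398.Q

open Vale.Agent.P167.H398.Q Vale.Agent.P167.H398

open Finset MeasureTheory

open Vale.Agent.P167.A (plane plane_nx)

open Vale.Agent.P167.BR

open Vale.Agent.P167.XDL (bS mem_bS)

open Vale.Agent.P167.FK

open Vale.Agent.P167.FKA (Loc)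

open Vale.Agent.P167.H199 (cang strand)

open Vale.Agent.P167.H685 (LE mem_LE)

open Vale.Agent.P167.QX (QL RT TB TO fLp VisL wS XBoff wB ql_strand loops_iff ql_LD ql_XoT
  abs_XoT_le prod_by_loops)

variable {D I : Finset (ℤ × ℤ)} {ω ω' : Cfg} {θ β : ℝ} {a : Ed → Bool → ℝ} {E : Finset Ed}
  {B : Set (ℤ × ℤ)}

/-- The number of the loops which visit `D`. -/
theorem LD_le_card (D : Finset (ℤ × ℤ)) (ω : Cfg) : LD D ω ≤ (eds D).card := by
  have h1 : {ℓ : Finset Ed | IsLoop ω ℓ ∧ ∃ v ∈ vs ℓ, v ∈ D} ⊆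
      ((LE ω (eds D) : Finset (Finset Ed)) : Set (Finset Ed)) := by
    rintro ℓ ⟨h1, v, hv, hvD⟩
    obtain ⟨e, he, rfl⟩ := mem_image.1 hv
    rw [mem_coe, mem_LE]
    exact ⟨h1, e, mem_eds.2 (Or.inl hvD), he⟩
  unfold LD
  refine (Set.ncard_le_ncard h1 (finite_toSet _)).trans ?_
  rw [Set.ncard_coe_finset]
  exact H685.card_LE_le ω _

/-- The functional is bounded and quasi-local. -/
theorem cb_RT (ha : ∀ e ∉ E, ∀ b, a e b = 0) (hθ : Kit (2 * Real.cos θ)) : CB (RT θ D a) := by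
  have h0 := hθ.pos
  have hc : Real.cos θ ≠ 0 := by intro h; rw [h] at h0; norm_num at h0
  obtain ⟨M, hM⟩ : ∃ M, ∀ ω, |QX.XoT θ D a ω| ≤ M :=
    ⟨_, fun ω => Vale.Agent.P167.N.QX.abs_XoT_le ω ha hθ⟩
  refine ⟨(ql_XoT ha hc).div ((ql_LD D).comp fun k => (2 * Real.cos θ) ^ k),
    M / (2 * Real.cos θ) ^ (eds D).card, fun ω _ => ?_⟩
  unfold RT
  rw [abs_div, abs_of_pos (pow_pos h0 _)]
  exact div_le_div₀ ((abs_nonneg _).trans (hM ω)) (hM ω) (pow_pos h0 _)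
    (pow_le_pow_of_le_one h0.le hθ.le (LD_le_card D ω))

open Classical in
theorem abs_prod_loops (hs : 0 < Real.sin θ) (hθ : Kit (2 * Real.cos θ)) (hω : Good ω)
    (p : Finset Ed → Prop) :
    |∏ ℓ ∈ (LE ω (bS I)).filter p, fLp θ I a ω ℓ| ≤
      (1 / (2 * Real.cos θ)) ^ (bS I).card *
        (1 / Real.sin θ) ^ ((bS I).filter fun e => hdv e ∉ I).card := by
  have h0 := hθ.pos
  have h1 : 1 ≤ 1 / Real.sin θ := by
    rw [one_le_div hs]
    exact Real.sin_le_one θ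
  have hc1 : 1 ≤ 1 / (2 * Real.cos θ) := by
    rw [one_le_div h0]
    exact hθ.le
  have hf : ∀ ℓ, |fLp θ I a ω ℓ| ≤ 1 / (2 * Real.cos θ) *
      ∏ _e ∈ (bS I).filter (fun e => hdv e ∉ I ∧ e ∈ ℓ), (1 / Real.sin θ) := by
    intro ℓ
    unfold fLp
    rw [abs_div, abs_of_pos h0, abs_prod, div_eq_mul_one_div, mul_comm]
    refine mul_le_mul_of_nonneg_left ?_ (by positivity)
    refine prod_le_prod (fun _ _ => abs_nonneg _) fun e _ => ?_
    unfold wS
    rw [abs_div, abs_of_pos hs]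
    exact div_le_div_of_nonneg_right (Real.abs_cos_le_one _) hs.le
  have h2 : ∀ ℓ : Finset Ed, (1 : ℝ) ≤ ∏ _e ∈ (bS I).filter (fun e => hdv e ∉ I ∧ e ∈ ℓ), (1 / Real.sin θ) := by
    intro ℓ
    rw [prod_const]
    exact one_le_pow₀ h1
  have hcard : ((LE ω (bS I)).filter p).card ≤ (bS I).card :=
    (card_filter_le _ _).trans (H685.card_LE_le ω _)
  have hB : ∏ ℓ ∈ (LE ω (bS I)).filter p,
          ∏ _e ∈ (bS I).filter (fun e => hdv e ∉ I ∧ e ∈ ℓ), (1 / Real.sin θ) ≤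
      (1 / Real.sin θ) ^ ((bS I).filter fun e => hdv e ∉ I).card := by
    calc ∏ ℓ ∈ (LE ω (bS I)).filter p,
          ∏ _e ∈ (bS I).filter (fun e => hdv e ∉ I ∧ e ∈ ℓ), (1 / Real.sin θ)
      ≤ ∏ ℓ ∈ LE ω (bS I),
          ∏ _e ∈ (bS I).filter (fun e => hdv e ∉ I ∧ e ∈ ℓ), (1 / Real.sin θ) := by
            rw [← prod_filter_mul_prod_filter_not (LE ω (bS I)) p (fun ℓ =>
              ∏ _e ∈ (bS I).filter (fun e => hdv e ∉ I ∧ e ∈ ℓ), (1 / Real.sin θ))]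
            refine le_mul_of_one_le_right (prod_nonneg fun ℓ _ => zero_le_one.trans (h2 ℓ)) ?_
            have h3 := prod_le_prod (s := (LE ω (bS I)).filter fun ℓ => ¬ p ℓ) (f := fun _ => (1 : ℝ))
              (fun _ _ => zero_le_one) fun ℓ _ => h2 ℓ
            rwa [prod_const_one] at h3
    _ = ∏ _e ∈ (bS I).filter (fun e => hdv e ∉ I), (1 / Real.sin θ) :=
            (prod_by_loops hω (bS I) (fun e => hdv e ∉ I) fun _ => 1 / Real.sin θ).symm
    _ = _ := by rw [prod_const]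
  calc |∏ ℓ ∈ (LE ω (bS I)).filter p, fLp θ I a ω ℓ|
      ≤ ∏ ℓ ∈ (LE ω (bS I)).filter p, (1 / (2 * Real.cos θ) *
          ∏ _e ∈ (bS I).filter (fun e => hdv e ∉ I ∧ e ∈ ℓ), (1 / Real.sin θ)) := by
        rw [abs_prod]
        exact prod_le_prod (fun _ _ => abs_nonneg _) fun ℓ _ => hf ℓ
    _ = (1 / (2 * Real.cos θ)) ^ ((LE ω (bS I)).filter p).card *
        ∏ ℓ ∈ (LE ω (bS I)).filter p,
          ∏ _e ∈ (bS I).filter (fun e => hdv e ∉ I ∧ e ∈ ℓ), (1 / Real.sin θ) := by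
        rw [prod_mul_distrib, prod_const]
    _ ≤ _ := mul_le_mul (pow_le_pow_right₀ hc1 hcard) hB
        (prod_nonneg fun ℓ _ => zero_le_one.trans (h2 ℓ)) (by positivity)

theorem cb_TO (hs : 0 < Real.sin θ) (hθ : Kit (2 * Real.cos θ)) : CB (TO θ I a B) := by
  have hθ_pos := hθ.pos
  classical
  refine ⟨?_, (1 / (2 * Real.cos θ)) ^ (bS I).card *
    (1 / Real.sin θ) ^ ((bS I).filter fun e => hdv e ∉ I).card, fun ω hω => ?_⟩
  · have h := ql_prod_loops θ I a (fun ℓ => ¬ VisL B ℓ)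
    unfold TO
    convert h
  · have h := abs_prod_loops (I := I) (a := a) hs hθ hω (fun ℓ => ¬ VisL B ℓ)
    unfold TO
    convert h

theorem cb_TB (hs : 0 < Real.sin θ) (hθ : Kit (2 * Real.cos θ)) : CB (TB θ I a B) := by
  have hθ_pos := hθ.pos
  classical
  refine ⟨?_, (1 / (2 * Real.cos θ)) ^ (bS I).card *
    (1 / Real.sin θ) ^ ((bS I).filter fun e => hdv e ∉ I).card, fun ω hω => ?_⟩
  · have h := ql_prod_loops θ I a (VisL B)
    unfold TB
    convert h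
  · have h := abs_prod_loops (I := I) (a := a) hs hθ hω (VisL B)
    unfold TB
    convert h

theorem abs_wB_le {n : ℕ} (h0 : 0 < θ) (h1 : Ang θ) (β : ℝ) (q : ZMod n → ℤ × ℤ)
    (D : Finset (ℤ × ℤ)) (k : ℕ) (A : Finset Ed) (t : ℝ) :
    |wB θ β q D k A t| ≤ 1 / Real.cos θ + 1 / Real.sin (2 * θ) + 1 / Real.sin θ := by
  have h1_lt := h1.lt
  have hs : 0 < Real.sin θ := Real.sin_pos_of_pos_of_lt_pi h0 (by linarith [Real.pi_pos])
  have hc : 0 < Real.cos θ := Real.cos_pos_of_mem_Ioo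
    ⟨by linarith [Real.pi_pos], by linarith [Real.pi_pos]⟩
  have hs2 : 0 < Real.sin (2 * θ) := by
    rw [Real.sin_two_mul]
    positivity
  have c1 : 0 < 1 / Real.cos θ := by positivity
  have c2 : 0 < 1 / Real.sin (2 * θ) := by positivity
  have c3 : 0 < 1 / Real.sin θ := by positivity
  unfold wB
  split_ifs
  · rw [abs_div, abs_of_pos hc]
    have := div_le_div_of_nonneg_right (Real.abs_cos_le_one (θ + t)) hc.le
    linarith
  · rw [abs_div, abs_of_pos hs]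
    have := div_le_div_of_nonneg_right (Real.abs_cos_le_one (θ / 2 + β + t)) hs.le
    linarith
  · rw [abs_div, abs_of_pos hs2]
    have := div_le_div_of_nonneg_right (Real.abs_sin_le_one (2 * θ + t)) hs2.le
    linarith
  · rw [abs_div, abs_of_pos hs]
    have := div_le_div_of_nonneg_right (Real.abs_sin_le_one (θ - t)) hs.le
    linarith

theorem one_le_wB (h0 : 0 < θ) (h1 : Ang θ) :
    1 ≤ 1 / Real.cos θ + 1 / Real.sin (2 * θ) + 1 / Real.sin θ := by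
  have h1_lt := h1.lt
  have hs : 0 < Real.sin θ := Real.sin_pos_of_pos_of_lt_pi h0 (by linarith [Real.pi_pos])
  have hc : 0 < Real.cos θ := Real.cos_pos_of_mem_Ioo
    ⟨by linarith [Real.pi_pos], by linarith [Real.pi_pos]⟩
  have hs2 : 0 < Real.sin (2 * θ) := by
    rw [Real.sin_two_mul]
    positivity
  have c1 : 1 ≤ 1 / Real.cos θ := by
    rw [one_le_div hc]
    exact Real.cos_le_one θ
  have c2 : 0 < 1 / Real.sin (2 * θ) := by positivity
  have c3 : 0 < 1 / Real.sin θ := by positivity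
  linarith

theorem cb_XBoff {n : ℕ} (h0 : 0 < θ) (h1 : Ang θ) (β : ℝ) (q : ZMod n → ℤ × ℤ)
    (D : Finset (ℤ × ℤ)) (k : ℕ) (f : ℤ × ℤ → ℝ) (B : Set (ℤ × ℤ)) :
    CB (XBoff θ β q D k f B) := by
  have h1_lt := h1.lt
  classical
  refine ⟨ql_XBoff θ β q D k f B, (1 / Real.cos θ + 1 / Real.sin (2 * θ) + 1 / Real.sin θ) ^
    (eds D).card, fun ω _ => ?_⟩
  set W : ℝ := 1 / Real.cos θ + 1 / Real.sin (2 * θ) + 1 / Real.sin θ with hW
  have hW1 : 1 ≤ W := one_le_wB h0 h1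
  unfold XBoff
  rw [abs_prod]
  calc _ ≤ ∏ _A ∈ (pcs ω D).filter (fun A => ∀ e ∈ A, ¬ QX.Vis B ω e), W :=
        prod_le_prod (fun _ _ => abs_nonneg _) fun A _ => abs_wB_le h0 h1 β q D k A _
    _ = W ^ ((pcs ω D).filter (fun A => ∀ e ∈ A, ¬ QX.Vis B ω e)).card := by rw [prod_const]
    _ ≤ W ^ (eds D).card := pow_le_pow_right₀ hW1 <| (card_filter_le _ _).trans card_image_le

end Vale.Agent.P167.N.H398.Q
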